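import Mathlib

/-!
Generalized regular expressions and their star height.
-/

namespace Vale.Agent.P329

/-- Generalized regular expressions: the constants, letters, union, concatenation, complement and
Kleene star. -/
inductive GExpr (α : Type) : Type where
  | zero : GExpr α
  | one : GExpr α
  | letter : α → GExpr α
  | add : GExpr α → GExpr α → GExpr α
  | mul : GExpr α → GExpr α → GExpr α
  | compl : GExpr α → GExpr α
  | star : GExpr α → GExpr α

variable {α : Type}

/-- The language denoted by an expression. -/
def GExpr.lang : GExpr α → Language α
  | .zero => 0
  | .one => 1
  | .letter a => ({[a]} : Set (List α))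
  | .add p q => p.lang + q.lang
  | .mul p q => p.lang * q.lang
  | .compl p => (p.lang : Set (List α))ᶜ
  | .star p => KStar.kstar p.lang

/-- The star height of an expression. -/
def GExpr.height : GExpr α → ℕ
  | .zero => 0
  | .one => 0
  | .letter _ => 0
  | .add p q => max p.height q.height
  | .mul p q => max p.height q.height
  | .compl p => p.height
  | .star p => p.height + 1

/-- The language has generalized star height at most `k`. -/
def HeightLE (k : ℕ) (L : Language α) : Prop := ∃ e : GExpr α, e.height ≤ k ∧ e.lang = L

end Vale.Agent.P329
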