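import Vale.Agent.P329.Defs

/-!
Automata that increase a rank away from one state have languages of height at most one.
-/

open scoped Computability

namespace Vale.Agent.P329

variable {α : Type} {k : ℕ}

/-- A set of words, as a language. -/
def lg (s : Set (List α)) : Language α := s

theorem mem_lg {s : Set (List α)} {w : List α} : w ∈ lg s ↔ w ∈ s := Iff.rfl

namespace HeightLE

theorem mono {k' : ℕ} {L : Language α} (h : HeightLE k L) (hk : k ≤ k') : HeightLE k' L := by
  obtain ⟨e, he, rfl⟩ := h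
  exact ⟨e, he.trans hk, rfl⟩

theorem zero : HeightLE k (0 : Language α) := ⟨.zero, Nat.zero_le _, rfl⟩

theorem one : HeightLE k (1 : Language α) := ⟨.one, Nat.zero_le _, rfl⟩

theorem letter (a : α) : HeightLE k (lg {[a]}) :=
  ⟨.letter a, Nat.zero_le _, rfl⟩

theorem union {L M : Language α} (h₁ : HeightLE k L) (h₂ : HeightLE k M) : HeightLE k (L + M) := by
  obtain ⟨p, hp, rfl⟩ := h₁
  obtain ⟨q, hq, rfl⟩ := h₂
  exact ⟨.add p q, max_le hp hq, rfl⟩

theorem concat {L M : Language α} (h₁ : HeightLE k L) (h₂ : HeightLE k M) : HeightLE k (L * M) := by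
  obtain ⟨p, hp, rfl⟩ := h₁
  obtain ⟨q, hq, rfl⟩ := h₂
  exact ⟨.mul p q, max_le hp hq, rfl⟩

theorem compl {L : Language α} (h : HeightLE k L) :
    HeightLE k (lg {w | w ∉ L}) := by
  obtain ⟨p, hp, rfl⟩ := h
  exact ⟨.compl p, hp, rfl⟩

theorem kstar {L : Language α} (h : HeightLE k L) : HeightLE (k + 1) L∗ := by
  obtain ⟨p, hp, rfl⟩ := h
  exact ⟨.star p, Nat.succ_le_succ hp, rfl⟩

theorem cond {L : Language α} (c : Prop) [Decidable c] (h : HeightLE k L) :
    HeightLE k (if c then L else 0) := by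
  split
  · exact h
  · exact zero

theorem sum {ι : Type} (s : Finset ι) {L : ι → Language α} (h : ∀ i ∈ s, HeightLE k (L i)) :
    HeightLE k (∑ i ∈ s, L i) := by
  classical
  induction s using Finset.induction_on with
  | empty => simpa using zero
  | insert a s ha ih =>
    rw [Finset.sum_insert ha]
    exact (h a (Finset.mem_insert_self a s)).union (ih fun i hi => h i (Finset.mem_insert_of_mem hi))

end HeightLE

theorem mem_sum {ι : Type} (s : Finset ι) (L : ι → Language α) (w : List α) :
    w ∈ ∑ i ∈ s, L i ↔ ∃ i ∈ s, w ∈ L i := by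
  classical
  induction s using Finset.induction_on with
  | empty => simp [Language.notMem_zero]
  | insert a s ha ih =>
    rw [Finset.sum_insert ha, Language.mem_add, ih]
    simp

theorem mem_single {a : α} {w : List α} : w ∈ lg {[a]} ↔ w = [a] := Iff.rfl

theorem mem_not {L : Language α} {w : List α} : w ∈ lg {v | v ∉ L} ↔ w ∉ L := Iff.rfl

/-- Finite intersections of languages. -/
theorem HeightLE.forall_mem {ι : Type} [Fintype ι] {L : ι → Language α}
    (h : ∀ i, HeightLE k (L i)) :
    HeightLE k (lg {w | ∀ i, w ∈ L i}) := by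
  have e : lg {w | ∀ i, w ∈ L i} = lg {v | v ∉ ∑ i, lg {u | u ∉ L i}} := by
    ext w
    rw [mem_not, mem_sum]
    simp only [Finset.mem_univ, true_and, mem_not, not_exists, not_not]
    rfl
  rw [e]
  exact (HeightLE.sum _ fun i _ => (h i).compl).compl

variable [Fintype α]

/-- Words all of whose letters satisfy `A` form a star-free language. -/
theorem HeightLE.only (A : α → Prop) :
    HeightLE k (lg {w | ∀ c ∈ w, A c}) := by
  classical
  have e : lg {w | ∀ c ∈ w, A c}
      = lg {v | v ∉ lg {u | u ∉ (0 : Language α)} *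
          (∑ a ∈ Finset.univ.filter (fun a => ¬A a), lg {[a]}) *
          lg {u | u ∉ (0 : Language α)}} := by
    ext w
    rw [mem_not]
    simp only [Language.mem_mul, mem_sum, mem_single, mem_not, Language.notMem_zero, not_false_iff,
      Finset.mem_filter, Finset.mem_univ, true_and]
    constructor
    · rintro hw ⟨u, ⟨x, -, y, ⟨a, ha, rfl⟩, rfl⟩, z, -, rfl⟩
      exact ha (hw a (by simp))
    · intro hw c hc
      by_contra hA
      obtain ⟨x, z, rfl⟩ := List.append_of_mem hc
      exact hw ⟨x ++ [c], ⟨x, trivial, [c], ⟨c, hA, rfl⟩, rfl⟩, z, trivial, by simp⟩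
  rw [e]
  exact ((HeightLE.zero.compl.concat (HeightLE.sum _ fun a _ => HeightLE.letter a)).concat
    HeightLE.zero.compl).compl

variable {σ : Type} (δ : σ → α → σ) (P : σ)

/-- The run from `x` avoids `P` throughout and ends at `y`. -/
def Avoids : σ → List α → σ → Prop
  | x, [], y => x = y ∧ x ≠ P
  | x, a :: w, y => x ≠ P ∧ Avoids (δ x a) w y

variable {δ P}

omit [Fintype α] in
theorem avoids_loop {x y : σ} (hx : x ≠ P) :
    ∀ {u v : List α}, (∀ c ∈ u, δ x c = x) → Avoids δ P x v y → Avoids δ P x (u ++ v) y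
  | [], _, _, h => h
  | c :: u, v, hu, h => by
    refine ⟨hx, ?_⟩
    rw [hu c (by simp)]
    exact avoids_loop hx (fun d hd => hu d (by simp [hd])) h

omit [Fintype α] in
theorem avoids_split {x y : σ} (hx : x ≠ P) :
    ∀ {w : List α}, Avoids δ P x w y → ∃ u v, w = u ++ v ∧ (∀ c ∈ u, δ x c = x) ∧
      ((v = [] ∧ x = y) ∨ ∃ a v', v = a :: v' ∧ δ x a ≠ x ∧ δ x a ≠ P ∧ Avoids δ P (δ x a) v' y)
  | [], h => ⟨[], [], rfl, by simp, Or.inl ⟨rfl, h.1⟩⟩
  | a :: w, h => by
    by_cases ha : δ x a = x
    · have h2 := h.2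
      rw [ha] at h2
      obtain ⟨u, v, rfl, hu, hv⟩ := avoids_split hx h2
      refine ⟨a :: u, v, rfl, fun c hc => ?_, hv⟩
      rcases List.mem_cons.1 hc with rfl | hc
      · exact ha
      · exact hu c hc
    · refine ⟨[], a :: w, rfl, by simp, Or.inr ⟨a, w, rfl, ha, ?_, h.2⟩⟩
      cases w with
      | nil => exact h.2.2
      | cons b w => exact h.2.1

omit [Fintype α] in
theorem avoids_end : ∀ {w : List α} {x y : σ}, Avoids δ P x w y → w.foldl δ x = y ∧ y ≠ P
  | [], _, _, h => ⟨h.1, h.1 ▸ h.2⟩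
  | _ :: _, _, _, h => by
    have := avoids_end h.2
    simpa using this

omit [Fintype α] in
theorem run_split : ∀ {w : List α} {x : σ}, x ≠ P → Avoids δ P x w (w.foldl δ x) ∨
    ∃ u a v y, w = u ++ a :: v ∧ Avoids δ P x u y ∧ δ y a = P
  | [], _, hx => Or.inl ⟨rfl, hx⟩
  | b :: w, x, hx => by
    by_cases hb : δ x b = P
    · exact Or.inr ⟨[], b, w, x, rfl, ⟨rfl, hx⟩, hb⟩
    · rcases run_split (w := w) hb with h | ⟨u, a, v, y, rfl, h1, h2⟩
      · exact Or.inl ⟨hx, h⟩
      · exact Or.inr ⟨b :: u, a, v, y, rfl, ⟨hx, h1⟩, h2⟩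

variable [Fintype σ] (r : σ → ℕ)
  (hr : ∀ x, x ≠ P → ∀ a, δ x a = x ∨ δ x a = P ∨ r x < r (δ x a))
include hr

theorem avoids_starFree (x y : σ) :
    HeightLE 0 (lg {w | Avoids δ P x w y}) := by
  classical
  induction hn : (Finset.univ.sup r + 1 - r x) using Nat.strong_induction_on generalizing x with
  | _ n ih =>
    by_cases hx : x = P
    · have e : (lg {w | Avoids δ P x w y}) = 0 := by
        ext w
        simp only [Language.notMem_zero, iff_false]
        cases w with
        | nil => exact fun h => h.2 hx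
        | cons a w => exact fun h => h.1 hx
      rw [e]
      exact HeightLE.zero
    set T := Finset.univ.filter fun a : α => δ x a ≠ x ∧ δ x a ≠ P with hT
    have e : (lg {w | Avoids δ P x w y})
        = (lg {w | ∀ c ∈ w, δ x c = x}) *
          ((if x = y then 1 else 0) + ∑ a ∈ T, (lg {[a]}) *
            (lg {w | Avoids δ P (δ x a) w y})) := by
      ext w
      simp only [Language.mem_mul, Language.mem_add, mem_sum, mem_single, hT, Finset.mem_filter,
        Finset.mem_univ, true_and]
      constructor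
      · intro h
        obtain ⟨u, v, rfl, hu, hv⟩ := avoids_split hx h
        refine ⟨u, hu, v, ?_, rfl⟩
        rcases hv with ⟨rfl, rfl⟩ | ⟨a, v', rfl, h1, h2, h3⟩
        · left; simp
        · exact Or.inr ⟨a, ⟨h1, h2⟩, [a], rfl, v', h3, rfl⟩
      · rintro ⟨u, hu, v, hv, rfl⟩
        refine avoids_loop hx hu ?_
        rcases hv with hv | ⟨a, -, c, rfl, v', h3, rfl⟩
        · split at hv
          · next h =>
            obtain rfl : v = [] := hv
            exact ⟨h, hx⟩
          · exact absurd hv (Language.notMem_zero _)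
        · exact ⟨hx, h3⟩
    rw [e]
    refine (HeightLE.only _).concat ((HeightLE.cond _ HeightLE.one).union
      (HeightLE.sum _ fun a ha => (HeightLE.letter a).concat (ih _ ?_ _ rfl)))
    simp only [hT, Finset.mem_filter] at ha
    have h1 := ((hr x hx a).resolve_left ha.2.1).resolve_left ha.2.2
    have := Finset.le_sup (f := r) (Finset.mem_univ (δ x a))
    omega

/-- The first arrivals at `P` from another state. -/
noncomputable def arrive (δ : σ → α → σ) (P x : σ) : Language α :=
  open Classical in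
  ∑ z ∈ (Finset.univ : Finset (σ × α)).filter (fun z => δ z.1 z.2 = P),
    (lg {w | Avoids δ P x w z.1}) * (lg {[z.2]})

omit hr in
theorem mem_arrive {x : σ} {w : List α} :
    w ∈ arrive δ P x ↔ ∃ u a y, w = u ++ [a] ∧ Avoids δ P x u y ∧ δ y a = P := by
  simp only [arrive, mem_sum, Finset.mem_filter, Finset.mem_univ, true_and, Language.mem_mul,
    mem_single]
  constructor
  · rintro ⟨⟨y, a⟩, h, u, hu, c, rfl, rfl⟩
    exact ⟨u, a, y, rfl, hu, h⟩
  · rintro ⟨u, a, y, rfl, hu, h⟩
    exact ⟨(y, a), h, u, hu, [a], rfl, rfl⟩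

theorem arrive_starFree (x : σ) : HeightLE 0 (arrive δ P x) := by
  classical
  exact HeightLE.sum _ fun z _ => (avoids_starFree r hr x z.1).concat (HeightLE.letter z.2)

omit hr in
theorem foldl_arrive {x : σ} {w : List α} (h : w ∈ arrive δ P x) : w.foldl δ x = P := by
  obtain ⟨u, a, y, rfl, hu, ha⟩ := mem_arrive.1 h
  simp [(avoids_end hu).1, ha]

/-- The first returns to `P`. -/
noncomputable def back (δ : σ → α → σ) (P : σ) : Language α :=
  open Classical in
  ∑ a : α, (lg {[a]}) * (if δ P a = P then 1 else arrive δ P (δ P a))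

omit hr in
theorem mem_back {w : List α} : w ∈ back δ P ↔ ∃ a v, w = a :: v ∧
    ((δ P a = P ∧ v = []) ∨ (δ P a ≠ P ∧ v ∈ arrive δ P (δ P a))) := by
  simp only [back, mem_sum, Finset.mem_univ, true_and, Language.mem_mul, mem_single]
  constructor
  · rintro ⟨a, c, rfl, v, hv, rfl⟩
    refine ⟨a, v, rfl, ?_⟩
    split at hv
    · next h => exact Or.inl ⟨h, hv⟩
    · next h => exact Or.inr ⟨h, hv⟩
  · rintro ⟨a, v, rfl, hv⟩
    refine ⟨a, [a], rfl, v, ?_, rfl⟩
    rcases hv with ⟨h, rfl⟩ | ⟨h, hv⟩
    · simp [h]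
    · simp [h, hv]

omit hr in
theorem foldl_back {w : List α} (h : w ∈ back δ P) : w.foldl δ P = P := by
  obtain ⟨a, v, rfl, ⟨ha, rfl⟩ | ⟨-, hv⟩⟩ := mem_back.1 h
  · simpa using ha
  · simpa using foldl_arrive hv

omit hr in
theorem foldl_kstar {w : List α} (h : w ∈ (back δ P)∗) : w.foldl δ P = P := by
  obtain ⟨L, rfl, hL⟩ := Language.mem_kstar.1 h
  clear h
  induction L with
  | nil => rfl
  | cons u L ih =>
    rw [List.flatten_cons, List.foldl_append, foldl_back (hL u (by simp))]
    exact ih fun y hy => hL y (by simp [hy])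

omit hr in
theorem from_base : ∀ w : List α, (w ∈ (back δ P)∗ ∧ w.foldl δ P = P) ∨
    ∃ u a v, w = u ++ a :: v ∧ u ∈ (back δ P)∗ ∧ δ P a ≠ P ∧
      Avoids δ P (δ P a) v (w.foldl δ P) := by
  intro w
  induction hl : w.length using Nat.strong_induction_on generalizing w with
  | _ l ih =>
    cases w with
    | nil => exact Or.inl ⟨Language.nil_mem_kstar _, rfl⟩
    | cons b w =>
      have step : ∀ u v, b :: w = u ++ v → u ∈ back δ P → v.length < l →
          (b :: w ∈ (back δ P)∗ ∧ (b :: w).foldl δ P = P) ∨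
          ∃ u a v, b :: w = u ++ a :: v ∧ u ∈ (back δ P)∗ ∧ δ P a ≠ P ∧
            Avoids δ P (δ P a) v ((b :: w).foldl δ P) := by
        intro u v huv hu hv
        have hcat : ∀ t, t ∈ (back δ P)∗ → u ++ t ∈ (back δ P)∗ := fun t ht => by
          obtain ⟨L, rfl, hL⟩ := Language.mem_kstar.1 ht
          exact Language.mem_kstar.2 ⟨u :: L, by simp, fun y hy => by
            rcases List.mem_cons.1 hy with rfl | hy
            · exact hu
            · exact hL y hy⟩
        rw [huv]
        rcases ih _ hv v rfl with ⟨h1, h2⟩ | ⟨p, a, q, rfl, h1, h2, h3⟩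
        · exact Or.inl ⟨hcat _ h1, by rw [List.foldl_append, foldl_back hu, h2]⟩
        · refine Or.inr ⟨u ++ p, a, q, by simp, hcat _ h1, h2, ?_⟩
          rwa [List.foldl_append, foldl_back hu]
      by_cases hb : δ P b = P
      · exact step [b] w rfl (mem_back.2 ⟨b, [], rfl, Or.inl ⟨hb, rfl⟩⟩) (by simp [← hl])
      rcases run_split (w := w) hb with h | ⟨u, a, v, y, rfl, h1, h2⟩
      · exact Or.inr ⟨[], b, w, rfl, Language.nil_mem_kstar _, hb, h⟩
      · refine step (b :: (u ++ [a])) v (by simp)
          (mem_back.2 ⟨b, u ++ [a], rfl, Or.inr ⟨hb, mem_arrive.2 ⟨u, a, y, rfl, h1, h2⟩⟩⟩) ?_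
        simp [← hl]; omega

theorem run_height_base (y : σ) :
    HeightLE 1 (lg {w | w.foldl δ P = y}) := by
  classical
  have e : (lg {w | w.foldl δ P = y}) = (back δ P)∗ *
      ((if P = y then 1 else 0) + ∑ a ∈ Finset.univ.filter (fun a => δ P a ≠ P),
        (lg {[a]}) *
          (lg {w | Avoids δ P (δ P a) w y})) := by
    ext w
    simp only [Language.mem_mul, Language.mem_add, mem_sum, mem_single, Finset.mem_filter,
      Finset.mem_univ, true_and]
    constructor
    · intro (h : w.foldl δ P = y)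
      rcases from_base (δ := δ) (P := P) w with ⟨h1, h2⟩ | ⟨u, a, v, rfl, h1, h2, h3⟩
      · exact ⟨w, h1, [], Or.inl (by simp [h2.symm.trans h]), by simp⟩
      · exact ⟨u, h1, a :: v, Or.inr ⟨a, h2, [a], rfl, v, h ▸ h3, rfl⟩, rfl⟩
    · rintro ⟨u, hu, v, hv, rfl⟩
      show (u ++ v).foldl δ P = y
      rw [List.foldl_append, foldl_kstar hu]
      rcases hv with hv | ⟨a, -, c, rfl, v', h3, rfl⟩
      · split at hv
        · next h =>
          obtain rfl : v = [] := hv
          exact h
        · exact absurd hv (Language.notMem_zero _)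
      · exact (avoids_end h3).1
  have hback : HeightLE 0 (back δ P) :=
    HeightLE.sum _ fun a _ => (HeightLE.letter a).concat (by
      split
      · exact HeightLE.one
      · exact arrive_starFree r hr _)
  rw [e]
  exact hback.kstar.concat ((HeightLE.cond _ HeightLE.one).union (HeightLE.sum _ fun a _ =>
    (HeightLE.letter a).concat ((avoids_starFree r hr _ y).mono (Nat.zero_le 1))))

theorem run_height (x y : σ) : HeightLE 1 (lg {w | w.foldl δ x = y}) := by
  by_cases hx : x = P
  · rw [hx]; exact run_height_base r hr y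
  have e : (lg {w | w.foldl δ x = y})
      = (lg {w | Avoids δ P x w y}) +
        arrive δ P x * (lg {w | w.foldl δ P = y}) := by
    ext w
    simp only [Language.mem_add, Language.mem_mul]
    constructor
    · intro (h : w.foldl δ x = y)
      rcases run_split (δ := δ) (P := P) (w := w) hx with h' | ⟨u, a, v, z, rfl, h1, h2⟩
      · exact Or.inl (h ▸ h')
      · refine Or.inr ⟨u ++ [a], mem_arrive.2 ⟨u, a, z, rfl, h1, h2⟩, v, ?_, by simp⟩
        show v.foldl δ P = y
        rw [← h, List.foldl_append, (avoids_end h1).1, List.foldl_cons, h2]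
    · rintro (h | ⟨u, hu, v, hv, rfl⟩)
      · exact (avoids_end h).1
      · show (u ++ v).foldl δ x = y
        rw [List.foldl_append, foldl_arrive hu]
        exact hv
  rw [e]
  exact ((avoids_starFree r hr x y).mono (Nat.zero_le 1)).union
    (((arrive_starFree r hr x).mono (Nat.zero_le 1)).concat (run_height_base r hr y))

theorem map_height (F : Set (σ → σ)) :
    HeightLE 1 (lg {w | (fun x => w.foldl δ x) ∈ F}) := by
  classical
  have e : (lg {w | (fun x => w.foldl δ x) ∈ F})
      = ∑ f ∈ Finset.univ.filter (fun f => f ∈ F),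
        (lg {w | ∀ x, w ∈ lg {v | v.foldl δ x = f x}}) := by
    ext w
    simp only [mem_sum, Finset.mem_filter, Finset.mem_univ, true_and]
    constructor
    · exact fun h => ⟨_, h, fun x => rfl⟩
    · rintro ⟨f, hf, h⟩
      show (fun x => w.foldl δ x) ∈ F
      rwa [show (fun x => w.foldl δ x) = f from funext h]
  rw [e]
  exact HeightLE.sum _ fun f _ => HeightLE.forall_mem fun x => run_height r hr x (f x)

end Vale.Agent.P329
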